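import Mathlib

/-!
# The greedy (Fibonacci–Sylvester) reduction for Egyptian fractions

`greedy_reduce`: starting from `a / b` with `0 < a < b`, at most `k + 2` greedy steps
(`W ≤ 2 ^ 2 ^ k`) lead to a remainder `a' / b'` which either vanishes or has `W ≤ b' < W ^ 2`,
and every greedy denominator `n` satisfies `n * b ≤ b'`.
-/

namespace Vale.Agent.H97

open Finset

/-- one step of the greedy algorithm: `n = ⌈b / a⌉` -/
theorem greedy_step (a b m : ℕ) (ha : 0 < a) (hm : 2 ≤ m) (hab : a * (m - 1) < b) :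
    ∃ n a₁ : ℕ, m ≤ n ∧ n ≤ b ∧ a₁ < a ∧ a₁ * (n * (n - 1)) < b * n ∧
      (a : ℚ) / b = 1 / n + (a₁ : ℚ) / ((b * n : ℕ) : ℚ) := by
  have hb : 0 < b := by omega
  set n := (b + a - 1) / a with hn
  have h1 : b ≤ a * n := by
    have h0 : b + a - 1 < a * (n + 1) := Nat.lt_mul_div_succ (b + a - 1) ha
    have e : a * (n + 1) = a * n + a := by ring
    omega
  have h2 : a * n < b + a := by
    have : a * n ≤ b + a - 1 := Nat.mul_div_le (b + a - 1) a
    omega
  have hmn : m ≤ n := by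
    have : a * (m - 1) < a * n := lt_of_lt_of_le hab h1
    have := Nat.lt_of_mul_lt_mul_left this
    omega
  have hn2 : 2 ≤ n := le_trans hm hmn
  have h3 : a * (n - 1) < b := by
    have e : a * (n - 1) = a * n - a := by
      rw [Nat.mul_sub_one]
    omega
  have hnb : n ≤ b := by
    have : n - 1 ≤ a * (n - 1) := Nat.le_mul_of_pos_left _ ha
    omega
  refine ⟨n, a * n - b, hmn, hnb, by omega, ?_, ?_⟩
  · have h4 : (a * n - b) * (n - 1) < b := by
      have h5 : (a * n - b) * (n - 1) ≤ a * (n - 1) :=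
        Nat.mul_le_mul_right _ (by omega)
      omega
    calc (a * n - b) * (n * (n - 1)) = ((a * n - b) * (n - 1)) * n := by ring
      _ < b * n := Nat.mul_lt_mul_of_pos_right h4 (by omega)
  · have hbq : (b : ℚ) ≠ 0 := by exact_mod_cast hb.ne'
    have hnq : (n : ℚ) ≠ 0 := by
      have : 0 < n := by omega
      exact_mod_cast this.ne'
    rw [Nat.cast_sub h1]
    push_cast
    field_simp
    ring

/-- the greedy loop with a lower bound `m` on the next denominator -/
theorem greedy_aux (k : ℕ) : ∀ (a b m W : ℕ), 0 < a → 2 ≤ m → a * (m - 1) < b → b < W →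
    W ≤ (m - 1) ^ 2 ^ k →
    ∃ (S : Finset ℕ) (a' b' : ℕ), (∀ n ∈ S, m ≤ n ∧ n * b ≤ b') ∧
      (a : ℚ) / b = ∑ n ∈ S, (1 : ℚ) / n + (a' : ℚ) / b' ∧ a' < a ∧ b ≤ b' ∧
      (a' = 0 ∨ W ≤ b') ∧ b' < W ^ 2 ∧ S.card ≤ k + 1 := by
  induction k with
  | zero =>
    intro a b m W ha hm hab hbW hW
    obtain ⟨n, a₁, hmn, hnb, ha₁, _, hq⟩ := greedy_step a b m ha hm hab
    have hb : 0 < b := by omega
    have hn : 0 < n := by omega
    have hW' : W ≤ m - 1 := by simpa using hW
    have hbn : b ≤ b * n := Nat.le_mul_of_pos_right b hn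
    refine ⟨{n}, a₁, b * n, ?_, ?_, ha₁, hbn, Or.inr (by omega), ?_, by simp⟩
    · intro x hx
      rw [Finset.mem_singleton] at hx
      subst hx
      exact ⟨hmn, by rw [mul_comm]⟩
    · rw [Finset.sum_singleton]
      exact hq
    · calc b * n ≤ b * b := Nat.mul_le_mul_left b hnb
        _ < W * W := Nat.mul_lt_mul'' hbW hbW
        _ = W ^ 2 := (sq W).symm
  | succ k ih =>
    intro a b m W ha hm hab hbW hW
    obtain ⟨n, a₁, hmn, hnb, ha₁, hrec, hq⟩ := greedy_step a b m ha hm hab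
    have hb : 0 < b := by omega
    have hn : 0 < n := by omega
    have hbn : b ≤ b * n := Nat.le_mul_of_pos_right b hn
    have hsq : b * n < W ^ 2 := by
      calc b * n ≤ b * b := Nat.mul_le_mul_left b hnb
        _ < W * W := Nat.mul_lt_mul'' hbW hbW
        _ = W ^ 2 := (sq W).symm
    have hsingle : ∀ x ∈ ({n} : Finset ℕ), m ≤ x ∧ x * b ≤ b * n := by
      intro x hx
      rw [Finset.mem_singleton] at hx
      subst hx
      exact ⟨hmn, by rw [mul_comm]⟩
    by_cases hstop : a₁ = 0 ∨ W ≤ b * n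
    · refine ⟨{n}, a₁, b * n, hsingle, ?_, ha₁, hbn, hstop, hsq, by simp⟩
      rw [Finset.sum_singleton]
      exact hq
    · push Not at hstop
      obtain ⟨ha₁0, hlt⟩ := hstop
      have ha₁pos : 0 < a₁ := Nat.pos_of_ne_zero ha₁0
      have hn2 : 2 ≤ n := le_trans hm hmn
      have hnle : n ≤ n * (n - 1) := by
        have : 1 ≤ n - 1 := by omega
        calc n = n * 1 := (mul_one n).symm
          _ ≤ n * (n - 1) := Nat.mul_le_mul_left n this
      have hnn : 2 ≤ n * (n - 1) := hn2.trans hnle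
      have hm1 : (m - 1) ^ 2 ≤ n * (n - 1) := by
        have h1 : m - 1 ≤ n - 1 := by omega
        have h2 : m - 1 ≤ n := by omega
        calc (m - 1) ^ 2 = (m - 1) * (m - 1) := sq _
          _ ≤ n * (n - 1) := Nat.mul_le_mul h2 h1
      have hW2 : W ≤ (n * (n - 1) + 1 - 1) ^ 2 ^ k := by
        rw [Nat.add_sub_cancel]
        calc W ≤ (m - 1) ^ 2 ^ (k + 1) := hW
          _ = ((m - 1) ^ 2) ^ 2 ^ k := by rw [pow_succ, mul_comm, pow_mul]
          _ ≤ (n * (n - 1)) ^ 2 ^ k := Nat.pow_le_pow_left hm1 _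
      obtain ⟨S₁, a', b', hS₁, hq₁, ha', hb', hor, hb'W, hcard⟩ :=
        ih a₁ (b * n) (n * (n - 1) + 1) W ha₁pos (by omega)
          (by rw [Nat.add_sub_cancel]; exact hrec) hlt hW2
      have hnS : n ∉ S₁ := by
        intro hmem
        have h1 := (hS₁ n hmem).1
        have h2 : n - 1 ≥ 1 := by omega
        have h3 : n * 1 ≤ n * (n - 1) := Nat.mul_le_mul_left n h2
        omega
      refine ⟨insert n S₁, a', b', ?_, ?_, by omega, by omega, hor, hb'W, ?_⟩
      · intro x hx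
        rw [Finset.mem_insert] at hx
        rcases hx with rfl | hx
        · exact ⟨hmn, by rw [mul_comm]; exact hb'⟩
        · obtain ⟨h1, h2⟩ := hS₁ x hx
          refine ⟨by omega, ?_⟩
          calc x * b ≤ x * (b * n) := Nat.mul_le_mul_left x hbn
            _ ≤ b' := h2
      · rw [Finset.sum_insert hnS, hq, hq₁]
        ring
      · rw [Finset.card_insert_of_notMem hnS]
        omega

/-- **Greedy reduction.**  For `0 < a < b < W ≤ 2 ^ 2 ^ k` there are at most `k + 2` integers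
`n ≥ 2` (the set `S`) and a remainder `a' / b'` with `a / b = ∑ 1 / n + a' / b'`, `a' < a`,
`b' < W ^ 2`, every `n ∈ S` satisfies `n * b ≤ b'`, and either `a' = 0` or `W ≤ b'`. -/
theorem greedy_reduce (a b W k : ℕ) (ha : 0 < a) (hab : a < b) (hbW : b < W)
    (hW : W ≤ 2 ^ 2 ^ k) :
    ∃ (S : Finset ℕ) (a' b' : ℕ), (∀ n ∈ S, 2 ≤ n ∧ n * b ≤ b') ∧
      (a : ℚ) / b = ∑ n ∈ S, (1 : ℚ) / n + (a' : ℚ) / b' ∧ a' < a ∧ 0 < b' ∧
      (a' = 0 ∨ W ≤ b') ∧ b' < W ^ 2 ∧ S.card ≤ k + 2 := by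
  obtain ⟨n, a₁, hmn, hnb, ha₁, hrec, hq⟩ := greedy_step a b 2 ha le_rfl (by omega)
  have hb : 0 < b := by omega
  have hn : 0 < n := by omega
  have hbn : b ≤ b * n := Nat.le_mul_of_pos_right b hn
  have hsq : b * n < W ^ 2 := by
    calc b * n ≤ b * b := Nat.mul_le_mul_left b hnb
      _ < W * W := Nat.mul_lt_mul'' hbW hbW
      _ = W ^ 2 := (sq W).symm
  have hsingle : ∀ x ∈ ({n} : Finset ℕ), 2 ≤ x ∧ x * b ≤ b * n := by
    intro x hx
    rw [Finset.mem_singleton] at hx
    subst hx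
    exact ⟨hmn, by rw [mul_comm]⟩
  by_cases hstop : a₁ = 0 ∨ W ≤ b * n
  · refine ⟨{n}, a₁, b * n, hsingle, ?_, ha₁, by omega, hstop, hsq, by simp⟩
    rw [Finset.sum_singleton]
    exact hq
  · push Not at hstop
    obtain ⟨ha₁0, hlt⟩ := hstop
    have ha₁pos : 0 < a₁ := Nat.pos_of_ne_zero ha₁0
    have hnle : n ≤ n * (n - 1) := by
      have : 1 ≤ n - 1 := by omega
      calc n = n * 1 := (mul_one n).symm
        _ ≤ n * (n - 1) := Nat.mul_le_mul_left n this
    have hnn : 2 ≤ n * (n - 1) := hmn.trans hnle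
    have hW2 : W ≤ (n * (n - 1) + 1 - 1) ^ 2 ^ k := by
      rw [Nat.add_sub_cancel]
      exact hW.trans (Nat.pow_le_pow_left hnn _)
    obtain ⟨S₁, a', b', hS₁, hq₁, ha', hb', hor, hb'W, hcard⟩ :=
      greedy_aux k a₁ (b * n) (n * (n - 1) + 1) W ha₁pos (by omega)
        (by rw [Nat.add_sub_cancel]; exact hrec) hlt hW2
    have hnS : n ∉ S₁ := by
      intro hmem
      have h1 := (hS₁ n hmem).1
      have h2 : n - 1 ≥ 1 := by omega
      have h3 : n * 1 ≤ n * (n - 1) := Nat.mul_le_mul_left n h2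
      omega
    refine ⟨insert n S₁, a', b', ?_, ?_, by omega, by omega, hor, hb'W, ?_⟩
    · intro x hx
      rw [Finset.mem_insert] at hx
      rcases hx with rfl | hx
      · exact ⟨hmn, by rw [mul_comm]; exact hb'⟩
      · obtain ⟨h1, h2⟩ := hS₁ x hx
        refine ⟨by omega, ?_⟩
        calc x * b ≤ x * (b * n) := Nat.mul_le_mul_left x hbn
          _ ≤ b' := h2
    · rw [Finset.sum_insert hnS, hq, hq₁]
      ring
    · rw [Finset.card_insert_of_notMem hnS]
      omega

end Vale.Agent.H97
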