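import Vale.Agent.H74.EgyCount
import Vale.Agent.H43.EgyBilinear
import Vale.Agent.H82.EgyZMod

/-!
Sub-lemma COVER of the P012 development: every residue modulo a product `Q` of distinct primes
is a sum `g 0 * a 0 * b 0 + ... + g 3 * a 3 * b 3` with `a i, b i` in a set `A` of naturals
that has few pairs congruent modulo the sub-products of `Q`.
-/

namespace Vale.Agent.H97

open Finset

theorem egy_one_add_pow_mul_le (x : ℝ) (hx : 0 ≤ x) (k : ℕ) :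
    (1 + x) ^ k * (1 - (k : ℝ) * x) ≤ 1 := by
  induction k with
  | zero => simp
  | succ k ih =>
    have h1 : (0 : ℝ) ≤ (1 + x) ^ k := by positivity
    have h2 : (1 + x) * (1 - ((k + 1 : ℕ) : ℝ) * x) ≤ 1 - (k : ℝ) * x := by
      push_cast
      nlinarith [mul_nonneg hx hx, mul_nonneg (Nat.cast_nonneg k : (0 : ℝ) ≤ k) (mul_nonneg hx hx)]
    calc (1 + x) ^ (k + 1) * (1 - ((k + 1 : ℕ) : ℝ) * x)
        = (1 + x) ^ k * ((1 + x) * (1 - ((k + 1 : ℕ) : ℝ) * x)) := by ring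
      _ ≤ (1 + x) ^ k * (1 - (k : ℝ) * x) := mul_le_mul_of_nonneg_left h2 h1
      _ ≤ 1 := ih

/-- The pairs counted by the bilinear bound are diagonal or congruent modulo every prime at
which `h` is not divisible. -/
theorem egy_energy_le (L : Finset ℕ) (hL : ∀ p ∈ L, p.Prime) (Q : ℕ) [NeZero Q]
    (hQ : Q = ∏ p ∈ L, p) (A : Finset ℕ) (g : ℕ) (hg : ∀ p ∈ L, ¬ p ∣ g) (h : ZMod Q) :
    ((A ×ˢ A).filter (fun p : ℕ × ℕ =>
        h * ((g : ZMod Q) * (p.1 : ZMod Q) - (g : ZMod Q) * (p.2 : ZMod Q)) = 0)).card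
      ≤ A.card + ((A.offDiag).filter (fun x : ℕ × ℕ =>
          ∀ p ∈ L.filter (fun p => ¬ p ∣ h.val), (p : ℤ) ∣ (x.1 : ℤ) - (x.2 : ℤ))).card := by
  classical
  have hsub : (A ×ˢ A).filter (fun p : ℕ × ℕ =>
        h * ((g : ZMod Q) * (p.1 : ZMod Q) - (g : ZMod Q) * (p.2 : ZMod Q)) = 0)
      ⊆ A.diag ∪ (A.offDiag).filter (fun x : ℕ × ℕ =>
          ∀ p ∈ L.filter (fun p => ¬ p ∣ h.val), (p : ℤ) ∣ (x.1 : ℤ) - (x.2 : ℤ)) := by
    rintro ⟨a, a'⟩ hx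
    rw [Finset.mem_filter, Finset.mem_product] at hx
    obtain ⟨⟨ha, ha'⟩, hz⟩ := hx
    by_cases haa : a = a'
    · exact Finset.mem_union_left _ (Finset.mem_diag.2 ⟨ha, haa⟩)
    · refine Finset.mem_union_right _
        (Finset.mem_filter.2 ⟨Finset.mem_offDiag.2 ⟨ha, ha', haa⟩, ?_⟩)
      intro p hp
      have hz' : h * (((g * a : ℕ) : ZMod Q) - ((g * a' : ℕ) : ZMod Q)) = 0 := by
        push_cast
        exact hz
      have hd := Vale.Agent.H82.dvd_sub_of_mul_eq_zero L hL Q hQ h (g * a) (g * a') hz' p hp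
      have hpL := (Finset.mem_filter.1 hp).1
      have hd' : (p : ℤ) ∣ (g : ℤ) * ((a : ℤ) - (a' : ℤ)) := by
        have e : ((g * a : ℕ) : ℤ) - ((g * a' : ℕ) : ℤ) = (g : ℤ) * ((a : ℤ) - (a' : ℤ)) := by
          push_cast
          ring
        rwa [e] at hd
      rcases Int.Prime.dvd_mul' (hL p hpL) hd' with h1 | h1
      · exact absurd (Int.natCast_dvd_natCast.1 h1) (hg p hpL)
      · exact h1
  calc ((A ×ˢ A).filter (fun p : ℕ × ℕ =>
        h * ((g : ZMod Q) * (p.1 : ZMod Q) - (g : ZMod Q) * (p.2 : ZMod Q)) = 0)).card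
      ≤ (A.diag ∪ (A.offDiag).filter (fun x : ℕ × ℕ =>
          ∀ p ∈ L.filter (fun p => ¬ p ∣ h.val), (p : ℤ) ∣ (x.1 : ℤ) - (x.2 : ℤ))).card :=
        Finset.card_le_card hsub
    _ ≤ A.diag.card + ((A.offDiag).filter (fun x : ℕ × ℕ =>
          ∀ p ∈ L.filter (fun p => ¬ p ∣ h.val), (p : ℤ) ∣ (x.1 : ℤ) - (x.2 : ℤ))).card :=
        Finset.card_union_le _ _
    _ = A.card + ((A.offDiag).filter (fun x : ℕ × ℕ =>
          ∀ p ∈ L.filter (fun p => ¬ p ∣ h.val), (p : ℤ) ∣ (x.1 : ℤ) - (x.2 : ℤ))).card := by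
        rw [Finset.diag_card]

/-- Bound for one exponential sum over `A ×ˢ A`. -/
theorem egy_char_sum_sq_le (L : Finset ℕ) (hL : ∀ p ∈ L, p.Prime) (Z c : ℕ)
    (hZ : ∀ p ∈ L, p ≤ Z) (A : Finset ℕ) (g : ℕ) (hg : ∀ p ∈ L, ¬ p ∣ g) (hc : 1 ≤ c)
    (hcA : c ^ L.card ≤ A.card)
    (hen : ∀ T ⊆ L, c ^ T.card * ((A.offDiag).filter
      (fun x => ∀ p ∈ T, (p : ℤ) ∣ (x.1 : ℤ) - (x.2 : ℤ))).card ≤ 2 * A.card ^ 2)
    (Q : ℕ) [NeZero Q] (hQ : Q = ∏ p ∈ L, p) (h : ZMod Q) :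
    ‖∑ x ∈ A ×ˢ A,
        (ZMod.stdAddChar (h * ((g : ZMod Q) * (x.1 : ZMod Q) * (x.2 : ZMod Q))) : ℂ)‖ ^ 2
      ≤ 9 * (A.card : ℝ) ^ 4 *
        ((Z : ℝ) / (c : ℝ) ^ 2) ^ (L.filter (fun p => ¬ p ∣ h.val)).card := by
  classical
  set T := L.filter (fun p => ¬ p ∣ h.val) with hT
  set t := T.card with ht
  set m := A.card with hm
  set D := ((A.offDiag).filter
    (fun x : ℕ × ℕ => ∀ p ∈ T, (p : ℤ) ∣ (x.1 : ℤ) - (x.2 : ℤ))).card with hD
  set n := (Finset.univ.filter (fun x : ZMod Q => h * x = 0)).card with hn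
  set QT := ∏ p ∈ T, p with hQT
  have e : ∑ x ∈ A ×ˢ A,
        (ZMod.stdAddChar (h * ((g : ZMod Q) * (x.1 : ZMod Q) * (x.2 : ZMod Q))) : ℂ)
      = ∑ a ∈ A, ∑ b ∈ A, (ZMod.stdAddChar
          (h * ((g : ZMod Q) * (a : ZMod Q)) * (((1 : ℕ) : ZMod Q) * (b : ZMod Q))) : ℂ) := by
    rw [Finset.sum_product]
    refine Finset.sum_congr rfl fun a _ => Finset.sum_congr rfl fun b _ => ?_
    have : h * ((g : ZMod Q) * (a : ZMod Q) * (b : ZMod Q))
        = h * ((g : ZMod Q) * (a : ZMod Q)) * (((1 : ℕ) : ZMod Q) * (b : ZMod Q)) := by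
      push_cast
      ring
    rw [this]
  have bil := Vale.Agent.H43.bilinear_bound Q A A (fun a : ℕ => (g : ZMod Q) * (a : ZMod Q))
    (fun b : ℕ => ((1 : ℕ) : ZMod Q) * (b : ZMod Q)) h
  rw [← e] at bil
  have hEα := egy_energy_le L hL Q hQ A g hg h
  have hEβ := egy_energy_le L hL Q hQ A 1
    (fun p hp => by
      have := (hL p hp).one_lt
      intro hd
      have := Nat.le_of_dvd Nat.one_pos hd
      omega) h
  set F := ‖∑ x ∈ A ×ˢ A,
        (ZMod.stdAddChar (h * ((g : ZMod Q) * (x.1 : ZMod Q) * (x.2 : ZMod Q))) : ℂ)‖ with hF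
  set Eα := ((A ×ˢ A).filter (fun p : ℕ × ℕ =>
        h * ((g : ZMod Q) * (p.1 : ZMod Q) - (g : ZMod Q) * (p.2 : ZMod Q)) = 0)).card with hEαd
  set Eβ := ((A ×ˢ A).filter (fun p : ℕ × ℕ =>
        h * (((1 : ℕ) : ZMod Q) * (p.1 : ZMod Q) - ((1 : ℕ) : ZMod Q) * (p.2 : ZMod Q))
          = 0)).card with hEβd
  have hQn : Q ≤ QT * n := Vale.Agent.H82.le_prod_psupp_mul_card_ann L hL Q hQ h
  have hn1 : 1 ≤ n := Finset.card_pos.2 ⟨0, by simp⟩
  have hQTZ : QT ≤ Z ^ t :=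
    Finset.prod_le_pow_card _ _ _ (fun p hp => hZ p (Finset.mem_filter.1 hp).1)
  have hct : c ^ t ≤ m :=
    le_trans (Nat.pow_le_pow_right hc (Finset.card_le_card (Finset.filter_subset _ _))) hcA
  have henT : c ^ t * D ≤ 2 * m ^ 2 := hen T (Finset.filter_subset _ _)
  have hE : ∀ E : ℕ, E ≤ m + D → c ^ t * E ≤ 3 * m ^ 2 := by
    intro E hE
    calc c ^ t * E ≤ c ^ t * (m + D) := Nat.mul_le_mul_left _ hE
      _ = c ^ t * m + c ^ t * D := by ring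
      _ ≤ m * m + 2 * m ^ 2 := Nat.add_le_add (Nat.mul_le_mul_right _ hct) henT
      _ = 3 * m ^ 2 := by ring
  have hα := hE Eα hEα
  have hβ := hE Eβ hEβ
  -- pass to the reals
  have hcpos : (0 : ℝ) < (c : ℝ) := by exact_mod_cast hc
  have hnpos : (0 : ℝ) < (n : ℝ) := by exact_mod_cast hn1
  have hF0 : 0 ≤ F := norm_nonneg _
  have hQnR : (Q : ℝ) ≤ (QT : ℝ) * (n : ℝ) := by exact_mod_cast hQn
  have hQTZR : (QT : ℝ) ≤ (Z : ℝ) ^ t := by exact_mod_cast hQTZ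
  have hαR : (c : ℝ) ^ t * (Eα : ℝ) ≤ 3 * (m : ℝ) ^ 2 := by exact_mod_cast hα
  have hβR : (c : ℝ) ^ t * (Eβ : ℝ) ≤ 3 * (m : ℝ) ^ 2 := by exact_mod_cast hβ
  have h1 : F ^ 2 ≤ (QT : ℝ) * (Eα : ℝ) * (Eβ : ℝ) := by
    have hEE : (0 : ℝ) ≤ (Eα : ℝ) * (Eβ : ℝ) := by positivity
    have h2 : (n : ℝ) * F ^ 2 ≤ (n : ℝ) * ((QT : ℝ) * (Eα : ℝ) * (Eβ : ℝ)) := by
      calc (n : ℝ) * F ^ 2 ≤ (Q : ℝ) * (Eα : ℝ) * (Eβ : ℝ) := bil
        _ = (Q : ℝ) * ((Eα : ℝ) * (Eβ : ℝ)) := by ring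
        _ ≤ ((QT : ℝ) * (n : ℝ)) * ((Eα : ℝ) * (Eβ : ℝ)) :=
            mul_le_mul_of_nonneg_right hQnR hEE
        _ = (n : ℝ) * ((QT : ℝ) * (Eα : ℝ) * (Eβ : ℝ)) := by ring
    exact le_of_mul_le_mul_left h2 hnpos
  have hct0 : (0 : ℝ) < (c : ℝ) ^ t := pow_pos hcpos t
  have h3 : ((c : ℝ) ^ t) ^ 2 * F ^ 2 ≤ 9 * (m : ℝ) ^ 4 * (Z : ℝ) ^ t := by
    have hZt : (0 : ℝ) ≤ (Z : ℝ) ^ t := by positivity
    have hQT0 : (0 : ℝ) ≤ (QT : ℝ) := by positivity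
    have ha0 : (0 : ℝ) ≤ (c : ℝ) ^ t * (Eα : ℝ) := by positivity
    have hb0 : (0 : ℝ) ≤ (c : ℝ) ^ t * (Eβ : ℝ) := by positivity
    calc ((c : ℝ) ^ t) ^ 2 * F ^ 2
        ≤ ((c : ℝ) ^ t) ^ 2 * ((QT : ℝ) * (Eα : ℝ) * (Eβ : ℝ)) :=
          mul_le_mul_of_nonneg_left h1 (by positivity)
      _ = (QT : ℝ) * (((c : ℝ) ^ t * (Eα : ℝ)) * ((c : ℝ) ^ t * (Eβ : ℝ))) := by ring
      _ ≤ (Z : ℝ) ^ t * ((3 * (m : ℝ) ^ 2) * (3 * (m : ℝ) ^ 2)) :=
          mul_le_mul hQTZR (mul_le_mul hαR hβR hb0 (by positivity)) (by positivity) hZt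
      _ = 9 * (m : ℝ) ^ 4 * (Z : ℝ) ^ t := by ring
  have h4 : ((Z : ℝ) / (c : ℝ) ^ 2) ^ t = (Z : ℝ) ^ t / ((c : ℝ) ^ t) ^ 2 := by
    rw [div_pow, ← pow_mul, ← pow_mul, mul_comm]
  rw [h4, ← mul_div_assoc, le_div_iff₀ (by positivity)]
  calc F ^ 2 * ((c : ℝ) ^ t) ^ 2 = ((c : ℝ) ^ t) ^ 2 * F ^ 2 := by ring
    _ ≤ 9 * (m : ℝ) ^ 4 * (Z : ℝ) ^ t := h3

theorem fourier_cover (L : Finset ℕ) (hL : ∀ p ∈ L, p.Prime) (Z c : ℕ) (hZ : ∀ p ∈ L, p ≤ Z)
    (A : Finset ℕ) (hA : A.Nonempty) (g : Fin 4 → ℕ) (hg : ∀ i, ∀ p ∈ L, ¬ p ∣ g i) (hc : 1 ≤ c)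
    (hcA : c ^ L.card ≤ A.card)
    (hen : ∀ T ⊆ L, c ^ T.card * ((A.offDiag).filter
      (fun x => ∀ p ∈ T, (p : ℤ) ∣ (x.1 : ℤ) - (x.2 : ℤ))).card ≤ 2 * A.card ^ 2)
    (hsmall : 1000 * L.card * Z ^ 3 < c ^ 4) (r : ℤ) :
    ∃ a b : Fin 4 → ℕ, (∀ i, a i ∈ A) ∧ (∀ i, b i ∈ A) ∧
      ((∏ p ∈ L, p : ℕ) : ℤ) ∣ r - ((∑ i, g i * a i * b i : ℕ) : ℤ) := by
  classical
  set Q : ℕ := ∏ p ∈ L, p with hQ
  have : NeZero Q := ⟨Finset.prod_ne_zero_iff.2 fun p hp => (hL p hp).ne_zero⟩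
  set m : ℕ := A.card with hm
  have hm1 : 1 ≤ m := Finset.card_pos.2 hA
  have hmR : (1 : ℝ) ≤ (m : ℝ) := by exact_mod_cast hm1
  have hcpos : (0 : ℝ) < (c : ℝ) := by exact_mod_cast hc
  set y : ℝ := (Z : ℝ) ^ 2 / (c : ℝ) ^ 4 with hy
  have hy0 : 0 ≤ y := by positivity
  have key : ∑ h ∈ (Finset.univ.erase (0 : ZMod Q)),
      ∏ i : Fin 4, ‖∑ x ∈ A ×ˢ A, (ZMod.stdAddChar
        (h * ((g i : ZMod Q) * ((x : ℕ × ℕ).1 : ZMod Q) * (x.2 : ZMod Q))) : ℂ)‖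
      < (((A ×ˢ A).card : ℕ) : ℝ) ^ 4 := by
    -- bound of one product
    have hprod : ∀ h : ZMod Q, ∏ i : Fin 4, ‖∑ x ∈ A ×ˢ A, (ZMod.stdAddChar
          (h * ((g i : ZMod Q) * ((x : ℕ × ℕ).1 : ZMod Q) * (x.2 : ZMod Q))) : ℂ)‖
        ≤ 81 * (m : ℝ) ^ 8 * y ^ (L.filter (fun p => ¬ p ∣ h.val)).card := by
      intro h
      set B : ℝ := 9 * (m : ℝ) ^ 4 *
        ((Z : ℝ) / (c : ℝ) ^ 2) ^ (L.filter (fun p => ¬ p ∣ h.val)).card with hB
      have hB0 : 0 ≤ B := by positivity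
      have hF : ∀ i : Fin 4, ‖∑ x ∈ A ×ˢ A, (ZMod.stdAddChar
          (h * ((g i : ZMod Q) * ((x : ℕ × ℕ).1 : ZMod Q) * (x.2 : ZMod Q))) : ℂ)‖
          ≤ Real.sqrt B := by
        intro i
        apply Real.le_sqrt_of_sq_le
        exact egy_char_sum_sq_le L hL Z c hZ A (g i) (hg i) hc hcA hen Q hQ h
      calc ∏ i : Fin 4, ‖∑ x ∈ A ×ˢ A, (ZMod.stdAddChar
            (h * ((g i : ZMod Q) * ((x : ℕ × ℕ).1 : ZMod Q) * (x.2 : ZMod Q))) : ℂ)‖
          ≤ ∏ _i : Fin 4, Real.sqrt B :=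
            Finset.prod_le_prod (fun i _ => norm_nonneg _) (fun i _ => hF i)
        _ = B ^ 2 := by
            rw [Finset.prod_const, Finset.card_univ, Fintype.card_fin]
            have hs := Real.sq_sqrt hB0
            calc Real.sqrt B ^ 4 = (Real.sqrt B ^ 2) ^ 2 := by ring
              _ = B ^ 2 := by rw [hs]
        _ = 81 * (m : ℝ) ^ 8 * y ^ (L.filter (fun p => ¬ p ∣ h.val)).card := by
            have e1 : (((Z : ℝ) / (c : ℝ) ^ 2) ^ (L.filter (fun p => ¬ p ∣ h.val)).card) ^ 2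
                = y ^ (L.filter (fun p => ¬ p ∣ h.val)).card := by
              rw [← pow_mul, mul_comm, pow_mul, hy]
              congr 1
              rw [div_pow, ← pow_mul]
            rw [hB, mul_pow, e1]
            ring
    -- the sum over `h`, grouped by the set of primes not dividing `h`
    have hsum : ∑ h ∈ (Finset.univ.erase (0 : ZMod Q)),
        y ^ (L.filter (fun p => ¬ p ∣ h.val)).card ≤ ((Z : ℝ) * y + 1) ^ L.card - 1 := by
      have hmaps : ∀ h ∈ (Finset.univ.erase (0 : ZMod Q)),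
          L.filter (fun p => ¬ p ∣ h.val) ∈ L.powerset.erase ∅ := by
        intro h hh
        rw [Finset.mem_erase] at hh ⊢
        exact ⟨(Vale.Agent.H82.psupp_nonempty L hL Q hQ h hh.1).ne_empty,
          Finset.mem_powerset.2 (Finset.filter_subset _ _)⟩
      rw [← Finset.sum_fiberwise_of_maps_to hmaps]
      calc ∑ T ∈ L.powerset.erase ∅, ∑ h ∈ (Finset.univ.erase (0 : ZMod Q)).filter
              (fun h => L.filter (fun p => ¬ p ∣ h.val) = T),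
              y ^ (L.filter (fun p => ¬ p ∣ h.val)).card
          ≤ ∑ T ∈ L.powerset.erase ∅, ((Z : ℝ) * y) ^ T.card := by
            refine Finset.sum_le_sum fun T hT => ?_
            have hTL : T ⊆ L := Finset.mem_powerset.1 (Finset.mem_erase.1 hT).2
            have hin : ∑ h ∈ (Finset.univ.erase (0 : ZMod Q)).filter
                (fun h => L.filter (fun p => ¬ p ∣ h.val) = T),
                y ^ (L.filter (fun p => ¬ p ∣ h.val)).card
                = ∑ _h ∈ (Finset.univ.erase (0 : ZMod Q)).filter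
                (fun h => L.filter (fun p => ¬ p ∣ h.val) = T), y ^ T.card :=
              Finset.sum_congr rfl (fun h hh => by rw [(Finset.mem_filter.1 hh).2])
            rw [hin, Finset.sum_const, nsmul_eq_mul, mul_pow]
            have hcard : ((Finset.univ.erase (0 : ZMod Q)).filter
                (fun h : ZMod Q => L.filter (fun p => ¬ p ∣ h.val) = T)).card ≤ Z ^ T.card := by
              calc ((Finset.univ.erase (0 : ZMod Q)).filter
                    (fun h : ZMod Q => L.filter (fun p => ¬ p ∣ h.val) = T)).card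
                  ≤ (Finset.univ.filter
                    (fun h : ZMod Q => L.filter (fun p => ¬ p ∣ h.val) = T)).card :=
                    Finset.card_le_card (Finset.filter_subset_filter _ (Finset.erase_subset _ _))
                _ ≤ ∏ p ∈ T, p := Vale.Agent.H82.card_psupp_eq_le L hL Q hQ T hTL
                _ ≤ Z ^ T.card := Finset.prod_le_pow_card _ _ _ (fun p hp => hZ p (hTL hp))
            have hcardR : (((Finset.univ.erase (0 : ZMod Q)).filter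
                (fun h : ZMod Q => L.filter (fun p => ¬ p ∣ h.val) = T)).card : ℝ)
                ≤ (Z : ℝ) ^ T.card := by exact_mod_cast hcard
            exact mul_le_mul_of_nonneg_right hcardR (pow_nonneg hy0 _)
        _ = ∑ T ∈ L.powerset, ((Z : ℝ) * y) ^ T.card - 1 := by
            rw [Finset.sum_erase_eq_sub (Finset.empty_mem_powerset L)]
            simp
        _ = ((Z : ℝ) * y + 1) ^ L.card - 1 := by
            have := Finset.sum_pow_mul_eq_add_pow ((Z : ℝ) * y) 1 L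
            simp only [one_pow, mul_one] at this
            rw [this]
    -- the numerical estimate
    set x : ℝ := (Z : ℝ) * y with hx
    have hx0 : 0 ≤ x := by positivity
    have hkx : (L.card : ℝ) * x < 1 / 1000 := by
      have hs : ((1000 * L.card * Z ^ 3 : ℕ) : ℝ) < ((c ^ 4 : ℕ) : ℝ) := by exact_mod_cast hsmall
      push_cast at hs
      have hc4 : (0 : ℝ) < (c : ℝ) ^ 4 := by positivity
      have e : (L.card : ℝ) * x = (L.card : ℝ) * (Z : ℝ) ^ 3 / (c : ℝ) ^ 4 := by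
        rw [hx, hy]
        field_simp
      rw [e, div_lt_iff₀ hc4]
      linarith
    have hpow : (x + 1) ^ L.card - 1 ≤ 1 / 999 := by
      have h1 := egy_one_add_pow_mul_le x hx0 L.card
      have h2 : (0 : ℝ) ≤ (1 + x) ^ L.card := by positivity
      have h3 : (1 + x) ^ L.card * (999 / 1000) ≤ (1 + x) ^ L.card * (1 - (L.card : ℝ) * x) :=
        mul_le_mul_of_nonneg_left (by linarith) h2
      have h4 : (x + 1) ^ L.card = (1 + x) ^ L.card := by rw [add_comm]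
      rw [h4]
      linarith
    have hm8 : (0 : ℝ) < (m : ℝ) ^ 8 := by positivity
    calc ∑ h ∈ (Finset.univ.erase (0 : ZMod Q)),
          ∏ i : Fin 4, ‖∑ x ∈ A ×ˢ A, (ZMod.stdAddChar
            (h * ((g i : ZMod Q) * ((x : ℕ × ℕ).1 : ZMod Q) * (x.2 : ZMod Q))) : ℂ)‖
        ≤ ∑ h ∈ (Finset.univ.erase (0 : ZMod Q)),
          81 * (m : ℝ) ^ 8 * y ^ (L.filter (fun p => ¬ p ∣ h.val)).card :=
          Finset.sum_le_sum fun h _ => hprod h
      _ = 81 * (m : ℝ) ^ 8 * ∑ h ∈ (Finset.univ.erase (0 : ZMod Q)),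
          y ^ (L.filter (fun p => ¬ p ∣ h.val)).card := by rw [Finset.mul_sum]
      _ ≤ 81 * (m : ℝ) ^ 8 * ((x + 1) ^ L.card - 1) :=
          mul_le_mul_of_nonneg_left hsum (by positivity)
      _ ≤ 81 * (m : ℝ) ^ 8 * (1 / 999) := mul_le_mul_of_nonneg_left hpow (by positivity)
      _ < (m : ℝ) ^ 8 := by linarith
      _ = (((A ×ˢ A).card : ℕ) : ℝ) ^ 4 := by
          rw [Finset.card_product]
          push_cast
          ring
  obtain ⟨x, hx, hsum⟩ := Vale.Agent.H74.exists_rep_of_sum_lt Q (A ×ˢ A)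
    (fun i (x : ℕ × ℕ) => (g i : ZMod Q) * (x.1 : ZMod Q) * (x.2 : ZMod Q)) (r : ZMod Q) key
  refine ⟨fun i => (x i).1, fun i => (x i).2, fun i => (Finset.mem_product.1 (hx i)).1,
    fun i => (Finset.mem_product.1 (hx i)).2, ?_⟩
  have hcast : (((∑ i, g i * (x i).1 * (x i).2 : ℕ) : ℤ) : ZMod Q) = ((r : ℤ) : ZMod Q) := by
    rw [← hsum]
    push_cast
    rfl
  exact (ZMod.intCast_eq_intCast_iff_dvd_sub _ _ _).1 hcast

end Vale.Agent.H97
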