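import Mathlib
import Vale.Agent.H97.EgyLevel

/-!
# The covering level in the two-window shape (P012, board row 145)

Rich primes `Pr` in `(2^w, 2^(2w)]`, block primes from `(2^u, 2^(2u)]` with `2w ≤ u`.
-/

namespace Vale.Agent.H97

open Finset

theorem cover_level_wu (w u γ v k : ℕ) (Pr : Finset ℕ)
    (hPr : ∀ p ∈ Pr, p.Prime ∧ 2 ^ w < p ∧ p ≤ 2 ^ (2 * w)) (hw : 3 ≤ w) (hwu : 2 * w ≤ u)
    (hk : 1 ≤ k) (hcount : (2 ^ γ) ^ k ≤ (Pr.card).choose v)
    (hsmall : 1000 * k * (2 ^ (2 * u)) ^ 3 < (2 ^ γ) ^ 4)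
    (hsupply : 2 * u * (4 * k * 2 ^ γ * v + k + 2 ^ u + 2) ≤ 2 ^ (2 * u)) :
    ∃ Q : ℕ, 2 ^ (u * k) ≤ Q ∧ ∀ r : ℕ, ∃ D : Finset ℕ,
      (∀ d ∈ D, d ∣ 210 * (∏ p ∈ Pr, p) ^ 2) ∧ D.card ≤ 4 ∧ (∀ d ∈ D, ¬ Q ∣ d) ∧
      ∑ d ∈ D, d < 2 ^ (4 * w * v + 5) ∧ (∑ d ∈ D, d) % Q = r % Q := by
  set N := ∏ p ∈ Pr, p with hN
  have hNpos : 0 < N := Finset.prod_pos (fun p hp => (hPr p hp).1.pos)
  have hupos : 0 < u := by omega
  have hu5 : 5 ≤ u := by omega
  have hc : 1 ≤ 2 ^ γ := Nat.one_le_two_pow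
  have h8 : 8 ≤ 2 ^ w := by
    calc 8 = 2 ^ 3 := by norm_num
      _ ≤ 2 ^ w := Nat.pow_le_pow_right (by norm_num) hw
  have h8u : 8 ≤ 2 ^ u := by
    calc 8 = 2 ^ 3 := by norm_num
      _ ≤ 2 ^ u := Nat.pow_le_pow_right (by norm_num) (by omega)
  have hwu' : 2 ^ (2 * w) ≤ 2 ^ u := Nat.pow_le_pow_right (by norm_num) hwu
  have hwu2 : 2 ^ (2 * w) ≤ 2 ^ (2 * u) := Nat.pow_le_pow_right (by norm_num) (by omega)
  -- the supply of block primes
  set PP := (Finset.Ioc (2 ^ u) (2 ^ (2 * u))).filter Nat.Prime with hPP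
  have hPPprime : ∀ p ∈ PP, p.Prime := fun p hp => (Finset.mem_filter.mp hp).2
  have hPPgt : ∀ p ∈ PP, 2 ^ u < p := fun p hp =>
    (Finset.mem_Ioc.mp (Finset.mem_filter.mp hp).1).1
  have hPPle : ∀ p ∈ PP, p ≤ 2 ^ (2 * u) := fun p hp =>
    (Finset.mem_Ioc.mp (Finset.mem_filter.mp hp).1).2
  have hPPP : ∀ p ∈ PP, p ∉ Pr := by
    intro p hp hmem
    have h1 := hPPgt p hp
    have h2 := (hPr p hmem).2.2
    omega
  have hcard : 2 * k * 2 ^ γ * (2 * v) + k ≤ PP.card := by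
    have hsup : 2 ^ (2 * u) ≤ 2 * u * (PP.card + 2 ^ u + 2) :=
      Vale.Agent.H79.card_primes_Ioc u hu5
    by_contra hlt
    have hlt' : PP.card < 2 * k * 2 ^ γ * (2 * v) + k := not_le.mp hlt
    have e1 : PP.card + 2 ^ u + 2 < 4 * k * 2 ^ γ * v + k + 2 ^ u + 2 := by
      have : 2 * k * 2 ^ γ * (2 * v) = 4 * k * 2 ^ γ * v := by ring
      omega
    have e2 : 2 * u * (PP.card + 2 ^ u + 2) <
        2 * u * (4 * k * 2 ^ γ * v + k + 2 ^ u + 2) :=
      Nat.mul_lt_mul_of_pos_left e1 (by omega)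
    omega
  -- the covering set: products of exactly `v` rich primes
  set A := (Pr.powersetCard v).image (fun s : Finset ℕ => ∏ p ∈ s, p) with hA
  have hinj : Set.InjOn (fun s : Finset ℕ => ∏ p ∈ s, p)
      (Pr.powersetCard v : Set (Finset ℕ)) := by
    intro s hs t ht hst
    have hs' := Finset.mem_powersetCard.mp (Finset.mem_coe.mp hs)
    have ht' := Finset.mem_powersetCard.mp (Finset.mem_coe.mp ht)
    have e1 := Nat.primeFactors_prod (s := s) (fun p hp => (hPr p (hs'.1 hp)).1)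
    have e2 := Nat.primeFactors_prod (s := t) (fun p hp => (hPr p (ht'.1 hp)).1)
    have hst' : ∏ p ∈ s, p = ∏ p ∈ t, p := hst
    rw [← e1, ← e2, hst']
  have hAcard : A.card = Pr.card.choose v := by
    rw [hA, Finset.card_image_of_injOn hinj, Finset.card_powersetCard]
  have hcop210 : ∀ p : ℕ, p.Prime → 2 ^ w < p → Nat.Coprime p 210 := by
    intro p hpp hgt
    have e : (210 : ℕ) = 2 * (3 * (5 * 7)) := by norm_num
    rw [e]
    refine Nat.Coprime.mul_right ?_ (Nat.Coprime.mul_right ?_ (Nat.Coprime.mul_right ?_ ?_))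
    · exact (Nat.coprime_primes hpp Nat.prime_two).mpr (by omega)
    · exact (Nat.coprime_primes hpp Nat.prime_three).mpr (by omega)
    · exact (Nat.coprime_primes hpp Nat.prime_five).mpr (by omega)
    · exact (Nat.coprime_primes hpp (by norm_num)).mpr (by omega)
  have hAmem : ∀ a ∈ A, a ∣ N ∧ 0 < a ∧ a ≤ (2 ^ (2 * w)) ^ v ∧ Nat.Coprime a 210 ∧
      ∀ q : ℕ, q.Prime → q ∣ a → q ∈ Pr := by
    intro a ha
    rw [hA, Finset.mem_image] at ha
    obtain ⟨s, hs, rfl⟩ := ha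
    have hs' := Finset.mem_powersetCard.mp hs
    refine ⟨Finset.prod_dvd_prod_of_subset s Pr (fun p => p) hs'.1,
      Finset.prod_pos (fun p hp => (hPr p (hs'.1 hp)).1.pos), ?_, ?_, ?_⟩
    · have := Finset.prod_le_pow_card s (fun p => p) (2 ^ (2 * w))
        (fun p hp => (hPr p (hs'.1 hp)).2.2)
      rw [hs'.2] at this
      exact this
    · apply Nat.Coprime.prod_left
      intro p hp
      exact hcop210 p (hPr p (hs'.1 hp)).1 (hPr p (hs'.1 hp)).2.1
    · intro q hq hqa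
      obtain ⟨p, hp, hqp⟩ := (Prime.dvd_finsetProd_iff hq.prime _).mp hqa
      have : q = p := (Nat.prime_dvd_prime_iff_eq hq (hPr p (hs'.1 hp)).1).mp hqp
      rw [this]
      exact hs'.1 hp
  have hAne : A.Nonempty := by
    rw [← Finset.card_pos, hAcard]
    exact lt_of_lt_of_le (Nat.pow_pos hc) hcount
  -- choose the block
  obtain ⟨L, hLsub, hLcard, hpot⟩ := Vale.Agent.H22.exists_prime_block A.offDiag
    (fun x => (x.1 : ℤ) - (x.2 : ℤ)) PP k (2 ^ γ) (2 * v) (by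
      intro x hx
      rw [Finset.mem_offDiag] at hx
      obtain ⟨hx1, hx2, hne⟩ := hx
      have b1 := hAmem x.1 hx1
      have b2 := hAmem x.2 hx2
      have hnat : 0 < ((x.1 : ℤ) - (x.2 : ℤ)).natAbs := by
        apply Int.natAbs_pos.mpr
        intro h0
        apply hne
        have : (x.1 : ℤ) = (x.2 : ℤ) := by linarith
        exact_mod_cast this
      have hnatle : ((x.1 : ℤ) - (x.2 : ℤ)).natAbs ≤ (2 ^ (2 * u)) ^ v := by
        have h1 := b1.2.2.1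
        have h2 := b2.2.2.1
        have h3 : (2 ^ (2 * w)) ^ v ≤ (2 ^ (2 * u)) ^ v := Nat.pow_le_pow_left hwu2 v
        omega
      exact card_primes_dvd_le_aux
        (fun p hp => hPPprime p (Finset.mem_filter.mp hp).1) hupos
        (fun p hp => hPPgt p (Finset.mem_filter.mp hp).1)
        (fun p hp => Int.natCast_dvd.mp (Finset.mem_filter.mp hp).2) hnat hnatle)
    hcard
  have hLprime : ∀ p ∈ L, p.Prime := fun p hp => hPPprime p (hLsub hp)
  have hLgt : ∀ p ∈ L, 2 ^ u < p := fun p hp => hPPgt p (hLsub hp)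
  have hLle : ∀ p ∈ L, p ≤ 2 ^ (2 * u) := fun p hp => hPPle p (hLsub hp)
  have hLP : ∀ p ∈ L, p ∉ Pr := fun p hp => hPPP p (hLsub hp)
  -- the markers
  let g : Fin 4 → ℕ := ![2, 3, 5, 7]
  have hgpos : ∀ i, 0 < g i ∧ g i ≤ 7 := by decide
  have hg210 : ∀ i, g i ∣ 210 := by decide
  have hggcd : ∀ i, Nat.gcd (g i) 210 = g i := by decide
  have hginj : ∀ i j, g i = g j → i = j := by decide
  have hgsum : ∑ i, g i = 17 := by decide
  have hgL : ∀ i, ∀ p ∈ L, ¬ p ∣ g i := by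
    intro i p hp hdvd
    have := Nat.le_of_dvd (hgpos i).1 hdvd
    have := hLgt p hp
    have := (hgpos i).2
    omega
  -- energy hypothesis
  have hen : ∀ T ⊆ L, (2 ^ γ) ^ T.card *
      ((A.offDiag).filter (fun x => ∀ p ∈ T, (p : ℤ) ∣ (x.1 : ℤ) - (x.2 : ℤ))).card
        ≤ 2 * A.card ^ 2 := by
    intro T hT
    have hoff : A.offDiag.card ≤ A.card ^ 2 := by
      rw [Finset.offDiag_card, sq]
      exact Nat.sub_le _ _
    calc (2 ^ γ) ^ T.card *
          ((A.offDiag).filter (fun x => ∀ p ∈ T, (p : ℤ) ∣ (x.1 : ℤ) - (x.2 : ℤ))).card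
        = ∑ _x ∈ (A.offDiag).filter (fun x => ∀ p ∈ T, (p : ℤ) ∣ (x.1 : ℤ) - (x.2 : ℤ)),
            (2 ^ γ) ^ T.card := by
          rw [Finset.sum_const, smul_eq_mul, mul_comm]
      _ ≤ ∑ x ∈ (A.offDiag).filter (fun x => ∀ p ∈ T, (p : ℤ) ∣ (x.1 : ℤ) - (x.2 : ℤ)),
            ∏ p ∈ L, (if (p : ℤ) ∣ (x.1 : ℤ) - (x.2 : ℤ) then 2 ^ γ + 1 else 1) := by
          apply Finset.sum_le_sum
          intro x hx
          have hx' := (Finset.mem_filter.mp hx).2
          calc (2 ^ γ) ^ T.card ≤ (2 ^ γ + 1) ^ T.card :=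
                Nat.pow_le_pow_left (Nat.le_succ (2 ^ γ)) _
            _ = ∏ p ∈ T, (2 ^ γ + 1) := by rw [Finset.prod_const]
            _ = ∏ p ∈ T, (if (p : ℤ) ∣ (x.1 : ℤ) - (x.2 : ℤ) then 2 ^ γ + 1 else 1) := by
                apply Finset.prod_congr rfl
                intro p hp
                rw [if_pos (hx' p hp)]
            _ ≤ ∏ p ∈ L, (if (p : ℤ) ∣ (x.1 : ℤ) - (x.2 : ℤ) then 2 ^ γ + 1 else 1) := by
                apply Finset.prod_le_prod_of_subset_of_one_le' hT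
                intro p _ _
                split_ifs <;> omega
      _ ≤ ∑ x ∈ A.offDiag,
            ∏ p ∈ L, (if (p : ℤ) ∣ (x.1 : ℤ) - (x.2 : ℤ) then 2 ^ γ + 1 else 1) :=
          Finset.sum_le_sum_of_subset (Finset.filter_subset _ _)
      _ ≤ 2 * A.offDiag.card := hpot
      _ ≤ 2 * A.card ^ 2 := Nat.mul_le_mul_left 2 hoff
  have hcA : (2 ^ γ) ^ L.card ≤ A.card := by
    rw [hLcard, hAcard]
    exact hcount
  have hsmall' : 1000 * L.card * (2 ^ (2 * u)) ^ 3 < (2 ^ γ) ^ 4 := by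
    rw [hLcard]
    exact hsmall
  have cover := Vale.Agent.H97.fourier_cover L hLprime (2 ^ (2 * u)) (2 ^ γ) hLle A hAne g hgL
    hc hcA hen hsmall'
  -- the modulus
  set Q := ∏ p ∈ L, p with hQ
  have hLne : L.Nonempty := by
    rw [← Finset.card_pos, hLcard]
    exact hk
  obtain ⟨p0, hp0⟩ := hLne
  have hp0Q : p0 ∣ Q := Finset.dvd_prod_of_mem (fun p => p) hp0
  have hQge : 2 ^ (u * k) ≤ Q := by
    rw [pow_mul, ← hLcard]
    exact Finset.pow_card_le_prod L (fun p => p) (2 ^ u) (fun p hp => (hLgt p hp).le)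
  refine ⟨Q, hQge, ?_⟩
  intro r
  obtain ⟨a, b, ha, hb, hdvd⟩ := cover (r : ℤ)
  set f : Fin 4 → ℕ := fun i => g i * a i * b i with hf
  have hfgcd : ∀ i, Nat.gcd (f i) 210 = g i := by
    intro i
    have hcop : Nat.Coprime (a i * b i) 210 :=
      Nat.Coprime.mul_left (hAmem _ (ha i)).2.2.2.1 (hAmem _ (hb i)).2.2.2.1
    have e : f i = g i * (a i * b i) := by simp only [hf]; ring
    rw [e, Nat.Coprime.gcd_mul_right_cancel (g i) hcop]
    exact hggcd i
  have hfinj : Function.Injective f := by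
    intro i j hij
    apply hginj
    rw [← hfgcd i, ← hfgcd j, hij]
  have hfdvd : ∀ i, f i ∣ 210 * N ^ 2 := by
    intro i
    have e : 210 * N ^ 2 = 210 * N * N := by ring
    rw [e]
    exact Nat.mul_dvd_mul (Nat.mul_dvd_mul (hg210 i) (hAmem _ (ha i)).1) (hAmem _ (hb i)).1
  have hfle : ∀ i, f i ≤ g i * ((2 ^ (2 * w)) ^ v * (2 ^ (2 * w)) ^ v) := by
    intro i
    have e : f i = g i * (a i * b i) := by simp only [hf]; ring
    rw [e]
    exact Nat.mul_le_mul_left _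
      (Nat.mul_le_mul (hAmem _ (ha i)).2.2.1 (hAmem _ (hb i)).2.2.1)
  have hsumD : ∑ d ∈ Finset.univ.image f, d = ∑ i, f i :=
    Finset.sum_image (fun i _ j _ hij => hfinj hij)
  refine ⟨Finset.univ.image f, ?_, ?_, ?_, ?_, ?_⟩
  · intro d hd
    obtain ⟨i, _, rfl⟩ := Finset.mem_image.mp hd
    exact hfdvd i
  · calc (Finset.univ.image f).card ≤ (Finset.univ : Finset (Fin 4)).card :=
          Finset.card_image_le
      _ = 4 := by simp
  · intro d hd hQd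
    obtain ⟨i, _, rfl⟩ := Finset.mem_image.mp hd
    have hp0f : p0 ∣ g i * a i * b i := hp0Q.trans hQd
    have hp0p := hLprime p0 hp0
    rcases (Nat.Prime.dvd_mul hp0p).mp hp0f with h | h
    · rcases (Nat.Prime.dvd_mul hp0p).mp h with h' | h'
      · exact hgL i p0 hp0 h'
      · exact hLP p0 hp0 ((hAmem _ (ha i)).2.2.2.2 p0 hp0p h')
    · exact hLP p0 hp0 ((hAmem _ (hb i)).2.2.2.2 p0 hp0p h)
  · rw [hsumD]
    have epow : (2 ^ (2 * w)) ^ v * (2 ^ (2 * w)) ^ v = 2 ^ (4 * w * v) := by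
      rw [← pow_mul, ← pow_add]
      congr 1
      ring
    calc ∑ i, f i ≤ ∑ i, g i * ((2 ^ (2 * w)) ^ v * (2 ^ (2 * w)) ^ v) :=
          Finset.sum_le_sum (fun i _ => hfle i)
      _ = 17 * 2 ^ (4 * w * v) := by rw [← Finset.sum_mul, hgsum, epow]
      _ < 32 * 2 ^ (4 * w * v) := Nat.mul_lt_mul_of_pos_right (by norm_num) (by positivity)
      _ = 2 ^ (4 * w * v + 5) := by rw [pow_add]; ring
  · rw [hsumD]
    exact (Nat.modEq_iff_dvd.mpr hdvd)

end Vale.Agent.H97
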